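import Vale.Agent.P192.Growth.Sphere

/-! An infinite finitely presented simple group has no orbit with infinitely many bounded spheres. -/

namespace Vale.Agent.Results.P196.BoundedSphereOrbits

theorem result :
    ∀ (G : Type) [Group G], Group.IsFinitelyPresented G →
      (IsSimpleGroup G ∧ Infinite G ∨ ∀ H : Subgroup G, H.FiniteIndex → H = ⊤) →
      ∀ (X : Type) [MulAction G X],
        (∀ (S : Finset G), Subgroup.closure (S : Set G) = ⊤ →
          ∀ (x : X), (∃ g : G, g • x ≠ x) → ∀ C : ℕ,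
            (∃ N : ℕ, ∀ n, N ≤ n → C <
              ({y : X | ∃ l : List G, l.length ≤ n + 1 ∧
                  (∀ g ∈ l, g ∈ S ∨ g⁻¹ ∈ S) ∧ l.prod • x = y} \
                {y : X | ∃ l : List G, l.length ≤ n ∧
                  (∀ g ∈ l, g ∈ S ∨ g⁻¹ ∈ S) ∧ l.prod • x = y}).ncard) ∧
            (∃ N : ℕ, ∀ n, N ≤ n →
              C * n < {y : X | ∃ l : List G, l.length ≤ n ∧
                (∀ g ∈ l, g ∈ S ∨ g⁻¹ ∈ S) ∧ l.prod • x = y}.ncard)) ∧
        (∀ (T : Equiv.Perm X),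
          (∀ g : G, ∃ N : ℕ, ∀ y : X, ∃ j : ℤ, j.natAbs ≤ N ∧ g • y = (T ^ j) y) →
          ∀ (g : G) (y : X), g • y = y) := by
  intro G _ hfp hG X _
  have hnofi : ∀ H : Subgroup G, H.FiniteIndex → H = ⊤ := by
    rcases hG with ⟨h1, h2⟩ | h
    · exact Vale.Agent.P196.simple_no_fi
    · exact h
  refine ⟨fun S hS x hx C => ⟨?_, ?_⟩, fun T hT => Vale.Agent.P196.bounded_powers hnofi T hT⟩
  · by_contra! h
    obtain ⟨g, hg⟩ := hx
    exact hg (Vale.Agent.P192.Growth.fixed_of_bounded_spheres hnofi S hS x C h g)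
  · by_contra! h
    obtain ⟨g, hg⟩ := hx
    exact hg (Vale.Agent.P196.fixed_of_linear_growth hnofi S hS x C h g)

end Vale.Agent.Results.P196.BoundedSphereOrbits
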