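import Vale.Agent.P196.Main.Layout
import Vale.Agent.P196.W.RigidParts

/-!
# P196: an infinite finitely presented simple amenable group

The hand-in. Amenability is stated as in the problem file.
-/

namespace Vale.Agent.Results.P196.SimpleAmenableFp

open scoped symmDiff

/-- There is an infinite group that is simple, finitely presented and amenable. -/
theorem result : ∃ (G : Type) (_ : Group G) (_ : DecidableEq G), Infinite G ∧ IsSimpleGroup G ∧
    Group.IsFinitelyPresented G ∧ ∀ K : Finset G, ∀ ε : ℝ, 0 < ε → ∃ D : Finset G,
      D.Nonempty ∧ ∀ g ∈ K, (((D.image (g * ·)) ∆ D).card : ℝ) < ε * D.card :=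
  P196.Main.exists_group_layout P196.W.macroSystem_rigid

end Vale.Agent.Results.P196.SimpleAmenableFp
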